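import Mathlib.Topology.Homotopy.Lifting
import Mathlib.AlgebraicTopology.FundamentalGroupoid.FundamentalGroup
import Mathlib.GroupTheory.Index
import Mathlib.GroupTheory.GroupAction.Quotient

/-!
# P255: the fundamental group of a compact covering space is a subgroup of finite index
-/

set_option linter.all false

open Topology Set

namespace Vale.Agent.P255.H443

variable {E X : Type*} [TopologicalSpace E] [TopologicalSpace X]

/-- The fundamental group of a covering space embeds in that of the base. -/
theorem cov_injective (p : C(E, X)) (cov : IsCoveringMap p) (x : E) :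
    Function.Injective (FundamentalGroup.map p x) := by
  intro a b hab
  exact cov.injective_path_homotopic_map x x hab

/-- A fibre of a covering map from a compact space to a `T1` space is finite. -/
theorem cov_finite_fiber [CompactSpace E] [T1Space X] (p : C(E, X)) (cov : IsCoveringMap p)
    (y : X) : Finite (p ⁻¹' {y}) := by
  have hF : IsClosed (p ⁻¹' {y}) := isClosed_singleton.preimage p.continuous
  have hD : DiscreteTopology (p ⁻¹' {y}) := (cov y).discreteTopology_fiber
  have hC : CompactSpace (p ⁻¹' {y}) := isCompact_iff_compactSpace.1 hF.isCompact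
  exact finite_of_compact_of_discrete

/-- The fundamental group of a compact covering space has finite index in that of the base. -/
theorem cov_finiteIndex [CompactSpace E] [T1Space X] (p : C(E, X)) (cov : IsCoveringMap p)
    (x : E) : (FundamentalGroup.map p x).range.FiniteIndex := by
  haveI hfin := cov_finite_fiber p cov (p x)
  letI act : MulAction (FundamentalGroup X (p x)) (p ⁻¹' {p x}) :=
    cov.fundamentalGroupMulAction (p x)
  set e₀ : p ⁻¹' {p x} := ⟨x, rfl⟩ with he₀
  have h1 : Finite (FundamentalGroup X (p x) ⧸
      MulAction.stabilizer (FundamentalGroup X (p x)) e₀) :=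
    Finite.of_equiv _ (MulAction.orbitEquivQuotientStabilizer (FundamentalGroup X (p x)) e₀)
  have h2 : (MulAction.stabilizer (FundamentalGroup X (p x)) e₀).FiniteIndex :=
    Subgroup.finiteIndex_of_finite_quotient
  refine Subgroup.finiteIndex_of_le (H := MulAction.stabilizer (FundamentalGroup X (p x)) e₀) ?_
  intro γ hγ
  have h3 : cov.monodromy (γ : Path.Homotopic.Quotient (p x) (p x)) e₀ = e₀ := hγ
  have h4 := cov.map_liftPathQuotient (γ : Path.Homotopic.Quotient (p x) (p x)) e₀
  have key : ∀ (e : p ⁻¹' {p x}) (he : e = e₀) (Γ : Path.Homotopic.Quotient e₀.1 e.1)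
      (h : Γ.map ⟨p, cov.continuous⟩ = Path.Homotopic.Quotient.cast
        (γ : Path.Homotopic.Quotient (p x) (p x)) e₀.2 e.2),
      ∃ Γ' : FundamentalGroup E x, FundamentalGroup.map p x Γ' = γ := by
    rintro e rfl Γ h
    refine ⟨Γ, ?_⟩
    have e1 : Path.Homotopic.Quotient.cast (γ : Path.Homotopic.Quotient (p x) (p x)) e₀.2 e₀.2 =
        γ := by
      generalize hγ' : (γ : Path.Homotopic.Quotient (p x) (p x)) = γ'
      induction γ' using Path.Homotopic.Quotient.ind with
      | mk c => rfl
    exact h.trans e1
  exact key _ h3 _ h4

end Vale.Agent.P255.H443
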