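import Vale.Agent.P255.H443.Virt
import Mathlib.GroupTheory.Index
import Mathlib.Analysis.InnerProductSpace.PiL2

/-!
# P255: the induced action

From a semisimple isometric action of a subgroup `H` of finite index of `Γ` on a space with the
midpoint inequality of Bruhat and Tits to an isometric action of `Γ` on a product of copies of this
space, in which the elements of the normal core of `H` are semisimple.
-/

set_option linter.all false

noncomputable section

namespace Vale.Agent.P255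

open Filter Topology

variable {Γ X : Type*} [Group Γ] {H : Subgroup Γ} [MulAction H X] {d : X → X → ℝ}

/-- the space of the induced action -/
structure Ind (H : Subgroup Γ) (X : Type*) [MulAction H X] where
  /-- the underlying function -/
  fn : Γ → X
  /-- equivariance -/
  eqv : ∀ (g : Γ) (k : H), fn (g * k) = k⁻¹ • fn g

namespace Ind

lemma eq_of {f f' : Ind H X} (h : f.1 = f'.1) : f = f' := by
  cases f; cases f'; cases h; rfl

instance : MulAction Γ (Ind H X) where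
  smul γ f := ⟨fun g => f.1 (γ⁻¹ * g), fun g k => by
    change f.1 (γ⁻¹ * (g * k)) = k⁻¹ • f.1 (γ⁻¹ * g)
    rw [← mul_assoc]; exact f.2 _ k⟩
  one_smul f := eq_of (funext fun g => by
    change f.1 (1⁻¹ * g) = f.1 g
    rw [inv_one, one_mul])
  mul_smul γ γ' f := eq_of (funext fun g => by
    change f.1 ((γ * γ')⁻¹ * g) = f.1 (γ'⁻¹ * (γ⁻¹ * g))
    rw [mul_inv_rev, mul_assoc])

lemma smul_apply (γ : Γ) (f : Ind H X) (g : Γ) : (γ • f).1 g = f.1 (γ⁻¹ * g) := rfl

/-- extension of a function on the cosets -/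
def extend (c : Γ ⧸ H → X) : Ind H X :=
  ⟨fun g => (⟨g⁻¹ * (QuotientGroup.mk g : Γ ⧸ H).out, QuotientGroup.eq.1
    (QuotientGroup.out_eq' (QuotientGroup.mk g : Γ ⧸ H)).symm⟩ : H) • c (QuotientGroup.mk g), by
    intro g k
    have e1 : (QuotientGroup.mk (g * k) : Γ ⧸ H) = QuotientGroup.mk g :=
      QuotientGroup.mk_mul_of_mem g k.2
    rw [smul_smul]
    have e2 : ∀ (q q' : Γ ⧸ H) (h : q = q') (hq : (g * k)⁻¹ * q.out ∈ H) (hq' : g⁻¹ * q'.out ∈ H),
        (⟨(g * k)⁻¹ * q.out, hq⟩ : H) • c q = (k⁻¹ * ⟨g⁻¹ * q'.out, hq'⟩ : H) • c q' := by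
      rintro q _ rfl hq hq'
      congr 1
      apply Subtype.ext
      push_cast
      group
    exact e2 _ _ e1 _ _⟩

lemma extend_out (c : Γ ⧸ H → X) (q : Γ ⧸ H) : (extend c).1 q.out = c q := by
  have e2 : ∀ (q' : Γ ⧸ H) (h : q' = q) (hq : q.out⁻¹ * q'.out ∈ H),
      (⟨q.out⁻¹ * q'.out, hq⟩ : H) • c q' = c q := by
    intro q' h hq
    subst h
    have : (⟨_, hq⟩ : H) = 1 := by
      apply Subtype.ext
      simp
    rw [this, one_smul]
  exact e2 _ (QuotientGroup.out_eq' q) _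

variable [Fintype (Γ ⧸ H)]

/-- the distance of the induced action -/
def dI (d : X → X → ℝ) (f f' : Ind H X) : ℝ :=
  Real.sqrt (∑ q : Γ ⧸ H, d (f.1 q.out) (f'.1 q.out) ^ 2)

lemma dI_nonneg (f f' : Ind H X) : 0 ≤ dI d f f' := Real.sqrt_nonneg _

lemma dI_sq (f f' : Ind H X) : dI d f f' ^ 2 = ∑ q : Γ ⧸ H, d (f.1 q.out) (f'.1 q.out) ^ 2 :=
  Real.sq_sqrt (Finset.sum_nonneg fun q _ => sq_nonneg _)

lemma sqrt_sum_le {ι : Type*} [Fintype ι] (a b c : ι → ℝ) (ha : ∀ i, 0 ≤ a i)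
    (h : ∀ i, a i ≤ b i + c i) :
    Real.sqrt (∑ i, a i ^ 2) ≤ Real.sqrt (∑ i, b i ^ 2) + Real.sqrt (∑ i, c i ^ 2) := by
  have e : ∀ u : ι → ℝ, Real.sqrt (∑ i, u i ^ 2) = ‖(WithLp.toLp 2 u : EuclideanSpace ℝ ι)‖ := by
    intro u
    rw [EuclideanSpace.norm_eq]
    simp
  calc Real.sqrt (∑ i, a i ^ 2) ≤ Real.sqrt (∑ i, (b i + c i) ^ 2) := by
        apply Real.sqrt_le_sqrt
        exact Finset.sum_le_sum fun i _ => pow_le_pow_left₀ (ha i) (h i) 2
    _ = ‖(WithLp.toLp 2 b : EuclideanSpace ℝ ι) + WithLp.toLp 2 c‖ := by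
        rw [← WithLp.toLp_add, ← e]
        rfl
    _ ≤ _ := by
        rw [e, e]
        exact norm_add_le _ _

lemma d_out (hinv : ∀ (k : H) (x y : X), d (k • x) (k • y) = d x y) (f f' : Ind H X) (g : Γ) :
    d (f.1 g) (f'.1 g) = d (f.1 (QuotientGroup.mk g : Γ ⧸ H).out)
      (f'.1 (QuotientGroup.mk g : Γ ⧸ H).out) := by
  obtain ⟨k, hk⟩ := QuotientGroup.mk_out_eq_mul H g
  rw [hk, f.2, f'.2, hinv]

lemma dI_inv (hinv : ∀ (k : H) (x y : X), d (k • x) (k • y) = d x y) (γ : Γ) (f f' : Ind H X) :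
    dI d (γ • f) (γ • f') = dI d f f' := by
  unfold dI
  congr 1
  have h1 : ∀ q : Γ ⧸ H, d ((γ • f).1 q.out) ((γ • f').1 q.out) =
      d (f.1 (γ⁻¹ • q).out) (f'.1 (γ⁻¹ • q).out) := by
    intro q
    rw [smul_apply, smul_apply, d_out hinv]
    have : (QuotientGroup.mk (γ⁻¹ * q.out) : Γ ⧸ H) = γ⁻¹ • q := by
      conv_rhs => rw [← QuotientGroup.out_eq' q]
      rfl
    rw [this]
  simp only [h1]
  exact Fintype.sum_equiv (MulAction.toPerm γ⁻¹) _ _ fun q => rfl

lemma smul_out {K : Subgroup Γ} (hK : K.Normal) (hKH : K ≤ H) (k : K) (f : Ind H X) (g : Γ) :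
    ((k : Γ) • f).1 g = (⟨g⁻¹ * k * g, hKH (by
      have := hK.conj_mem k k.2 g⁻¹
      rwa [inv_inv] at this)⟩ : H) • f.1 g := by
  set c : H := ⟨g⁻¹ * k * g, hKH (by
      have := hK.conj_mem k k.2 g⁻¹
      rwa [inv_inv] at this)⟩ with hc
  have h1 := f.2 g c⁻¹
  rw [inv_inv] at h1
  rw [← h1, smul_apply]
  congr 1
  rw [Subgroup.coe_inv, hc]
  group

/-- the induced action is an action by isometries with the midpoint inequality, in which the
elements of a normal subgroup contained in `H` are semisimple -/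
theorem isSS [Nonempty X] (h : SS H X d) {K : Subgroup Γ} (hK : K.Normal) (hKH : K ≤ H) :
    SS K (Ind H X) (dI d) where
  nonneg f f' := dI_nonneg f f'
  self f := by
    unfold dI
    simp [h.self]
  symm f f' := by
    unfold dI
    simp only [h.symm]
  tri f f' f'' := sqrt_sum_le _ _ _ (fun q => h.nonneg _ _) (fun q => h.tri _ _ _)
  inv k f f' := dI_inv h.inv (k : Γ) f f'
  cn f f' := by
    choose m hm using fun q : Γ ⧸ H => h.cn (f.1 q.out) (f'.1 q.out)
    refine ⟨extend m, fun x => ?_⟩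
    rw [dI_sq, dI_sq, dI_sq, dI_sq, ← Finset.sum_add_distrib, Finset.sum_div, Finset.sum_div,
      ← Finset.sum_sub_distrib]
    refine Finset.sum_le_sum fun q _ => ?_
    rw [extend_out]
    exact hm q (x.1 q.out)
  exists_min k := by
    have hc : ∀ q : Γ ⧸ H, q.out⁻¹ * k * q.out ∈ H := fun q => hKH (by
      have := hK.conj_mem k k.2 q.out⁻¹
      rwa [inv_inv] at this)
    choose m hm using fun q : Γ ⧸ H => h.exists_min (⟨q.out⁻¹ * k * q.out, hc q⟩ : H)
    refine ⟨extend m, ?_⟩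
    have hle : ∀ f : Ind H X, dI d (extend m) (k • extend m) ≤ dI d f (k • f) := by
      intro f
      apply Real.sqrt_le_sqrt
      refine Finset.sum_le_sum fun q _ => pow_le_pow_left₀ (h.nonneg _ _) ?_ 2
      rw [Subgroup.smul_def, Subgroup.smul_def, smul_out hK hKH, smul_out hK hKH, extend_out, hm q]
      exact h.tau_le _ _
    haveI : Nonempty (Ind H X) := ⟨extend m⟩
    have hbdd : BddBelow (Set.range fun f : Ind H X => dI d f (k • f)) :=
      ⟨0, by rintro _ ⟨f, rfl⟩; exact dI_nonneg _ _⟩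
    exact le_antisymm (le_ciInf hle) (ciInf_le hbdd _)

end Ind

/-- **Virtual obstruction.** Let `H` be a subgroup of finite index of `Γ` which acts by semisimple
isometries on a nonempty space with the midpoint inequality of Bruhat and Tits, in such a way that
elements with a fixed point have finite order. If `z` commutes with `A₁`, `A₂`, if
`z' = [A₁, A₂]` commutes with `B₁`, `B₂` and `[B₁, B₂] = z z'⁻¹`, then `z'` has finite order. -/
theorem SS.virt [H.FiniteIndex] [Nonempty X] (h : SS H X d)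
    (hfix : ∀ (k : H) (x : X), d x (k • x) = 0 → IsOfFinOrder k) {z z' A₁ A₂ B₁ B₂ : Γ}
    (h1 : Commute z A₁) (h2 : Commute z A₂) (h3 : A₁ * A₂ * A₁⁻¹ * A₂⁻¹ = z')
    (h4 : Commute z' B₁) (h5 : Commute z' B₂) (h6 : B₁ * B₂ * B₁⁻¹ * B₂⁻¹ = z * z'⁻¹) :
    IsOfFinOrder z' := by
  letI : Fintype (Γ ⧸ H) := H.fintypeQuotientOfFiniteIndex
  set K := H.normalCore with hKdef
  have hK : K.Normal := H.normalCore_normal
  have hKH : K ≤ H := H.normalCore_le
  have hS := Ind.isSS h hK hKH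
  haveI : Nonempty (Ind H X) := ⟨Ind.extend fun _ => Classical.arbitrary X⟩
  have hN : K.index ≠ 0 := Subgroup.FiniteIndex.index_ne_zero
  obtain ⟨f, hf⟩ := hS.fixed (Ind.dI_inv h.inv) h1 h2 h3 h4 h5 h6 K.index
    (K.pow_index_mem z) (K.pow_index_mem z')
  set q : Γ ⧸ H := QuotientGroup.mk 1 with hq
  have hsum : ∑ q : Γ ⧸ H, d (f.1 q.out) (((z' ^ K.index) • f).1 q.out) ^ 2 = 0 := by
    rw [← Ind.dI_sq, hf]; norm_num
  have h7 := (Finset.sum_eq_zero_iff_of_nonneg (fun q _ => sq_nonneg _)).1 hsum q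
    (Finset.mem_univ _)
  have h8 : d (f.1 q.out) (((z' ^ K.index) • f).1 q.out) = 0 := by simpa using h7
  have h9 := Ind.smul_out hK hKH ⟨z' ^ K.index, K.pow_index_mem z'⟩ f q.out
  rw [h9] at h8
  have h10 := hfix _ _ h8
  have h11 : IsOfFinOrder (q.out⁻¹ * z' ^ K.index * q.out) := by
    have := Submonoid.isOfFinOrder_coe.2 h10
    exact this
  have h12 : IsConj (q.out⁻¹ * z' ^ K.index * q.out) (z' ^ K.index) := by
    rw [isConj_iff]
    exact ⟨q.out, by group⟩
  exact (h12.isOfFinOrder h11).of_pow hN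

end Vale.Agent.P255
end
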