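import Vale.Agent.P255.FinalDefs
import Vale.Agent.P255.Bdl.B1
import Vale.Agent.P255.Bdl.B2

set_option linter.all false

/-!
# P255: the element `z'` of the fundamental group has infinite order

`pi1_relations_inf` is `pi1_relations` with a stronger last clause: if a power `z'^N` is trivial
then the `N`-fold closed geodesic is null-homotopic.
-/

open scoped Manifold ContDiff Topology unitInterval
open Set CategoryTheory

noncomputable section

namespace Vale.Agent.P255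

namespace H443

open Pi1 Seg

/-- powers of the class of the vertical circle -/
theorem cls_pow (δ : ℝ) (hδ : 0 < δ) (b0 : FC δ hδ (3 / 2, 0, 0) = m0 δ hδ)
    (b2 : FC δ hδ (3 / 2, 0, 2 * Real.pi) = m0 δ hδ)
    (z' : FundamentalGroup (Sd δ hδ).Space (m0 δ hδ))
    (hz' : z' = cls (FC δ hδ) (3 / 2, 0, 0) (3 / 2, 0, 2 * Real.pi) b0 b2) (N : ℕ)
    (bN : FC δ hδ (3 / 2, 0, 2 * Real.pi * N) = m0 δ hδ) :
    z' ^ N = cls (FC δ hδ) (3 / 2, 0, 0) (3 / 2, 0, 2 * Real.pi * N) b0 bN := by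
  induction N with
  | zero =>
    have h1 : cls (FC δ hδ) (3 / 2, 0, 0) (3 / 2, 0, 2 * Real.pi * (0 : ℕ)) b0 bN =
        cls (FC δ hδ) (3 / 2, 0, 0) (3 / 2, 0, 0) b0 b0 := by
      refine cls_congr _ _ _ _ fun u h0 h1 => ?_
      rw [R3_seg, R3_seg]
      congr 3
      push_cast
      ring
    rw [h1, cls_self, pow_zero]
    rfl
  | succ N ih =>
    have bN' : FC δ hδ (3 / 2, 0, 2 * Real.pi * N) = m0 δ hδ := by
      rw [← b0]; exact FC_eq δ hδ 0 N rfl (by simp) (by simp)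
    have h1 := ih bN'
    have h2 : cls (FC δ hδ) (3 / 2, 0, 0) (3 / 2, 0, 2 * Real.pi) b0 b2 =
        cls (FC δ hδ) (3 / 2, 0, 2 * Real.pi * N) (3 / 2, 0, 2 * Real.pi * (N + 1 : ℕ)) bN' bN := by
      refine cls_congr _ _ _ _ fun u h0 h1 => ?_
      rw [R3_seg, R3_seg]
      exact (FC_eq δ hδ 0 N (by ring) (by push_cast; ring) (by push_cast; ring)).symm
    rw [pow_succ', End.mul_def, h1, hz', h2, cls_comp]

end H443

open Pi1 Seg in
/-- relations in the fundamental group; `z'` is the class of the loop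
`t ↦ proj C (3/2, 0, 2πt)`, and its powers are the multiples of this loop -/
theorem H443.pi1_relations_inf (δ : ℝ) (hδ : 0 < δ) :
    ∃ z z' A₁ A₂ B₁ B₂ : FundamentalGroup (Sd δ hδ).Space (m0 δ hδ),
      Commute z A₁ ∧ Commute z A₂ ∧ A₁ * A₂ * A₁⁻¹ * A₂⁻¹ = z' ∧
      Commute z' B₁ ∧ Commute z' B₂ ∧ B₁ * B₂ * B₁⁻¹ * B₂⁻¹ = z * z'⁻¹ ∧
      (∀ N : ℕ, z' ^ N = 1 → ∃ γ : Path (m0 δ hδ) (m0 δ hδ), γ.Homotopic (Path.refl _) ∧
        ∀ t : unitInterval, γ t = circ δ hδ (N * t)) := by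
  have b0 : FC δ hδ (3 / 2, 0, 0) = m0 δ hδ := FC_base δ hδ 0
  have b1 : FC δ hδ (3 / 2, per δ, 0) = m0 δ hδ := by
    rw [← b0]; exact FC_eq δ hδ 1 0 rfl (by simp) (by simp)
  have b2 : FC δ hδ (3 / 2, 0, 2 * Real.pi) = m0 δ hδ := by
    rw [← b0]; exact FC_eq δ hδ 0 1 rfl (by simp) (by simp)
  have b3 : FC δ hδ (3 / 2, 0, -(2 * Real.pi)) = m0 δ hδ := by
    rw [← b0]; exact FC_eq δ hδ 0 (-1) rfl (by simp) (by simp)
  have b4 : FC δ hδ (3 / 2, per δ, -(2 * Real.pi)) = m0 δ hδ := by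
    rw [← b0]; exact FC_eq δ hδ 1 (-1) rfl (by simp) (by simp)
  set z := cls (FC δ hδ) (3 / 2, 0, 0) (3 / 2, per δ, 0) b0 b1 with hz
  set z' := cls (FC δ hδ) (3 / 2, 0, 0) (3 / 2, 0, 2 * Real.pi) b0 b2 with hz'
  -- left piece
  obtain ⟨x, hx⟩ : ∃ x, x = KL δ hδ (0, Real.pi / 4, 0) := ⟨_, rfl⟩
  have hx1 : KL δ hδ (0, Real.pi / 4, 0) = x := hx.symm
  have hx2 : KL δ hδ (0, 9 * Real.pi / 4, 0) = x := by
    rw [hx, ← KL_θ δ hδ 0 (Real.pi / 4)]
    congr 2; congr 1; ring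
  have hx3 : KL δ hδ (0, Real.pi / 4, per δ) = x := by
    rw [hx, ← KL_w δ hδ 0 (Real.pi / 4) 0, zero_add]
  obtain ⟨a₁, a₂, hcomm, ha₁, ha₂⟩ := piece_relations (KL δ hδ) (per δ) (KL_θ δ hδ) (KL_w δ hδ)
    (KL_top δ hδ) (KL_side δ hδ) hx1 hx2 hx3
  have l1 : FC δ hδ (-2, 0, Real.pi / 4) = x := by rw [← KL_zero, hx1]
  have l2 : FC δ hδ (-2, 0, 9 * Real.pi / 4) = x := by rw [← KL_zero, hx2]
  have l3 : FC δ hδ (-2, per δ, Real.pi / 4) = x := by rw [← KL_zero, hx3]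
  set h₁ := cls (FC δ hδ) (3 / 2, 0, 0) (-2, 0, Real.pi / 4) b0 l1 with hh₁
  have lz' : z' = h₁ ≫ (a₁ ≫ a₂ ≫ inv a₁ ≫ inv a₂) ≫ inv h₁ := by
    have e1 : cls (FC δ hδ) (-2, 0, 9 * Real.pi / 4) (3 / 2, 0, 2 * Real.pi) l2 b2 = inv h₁ := by
      rw [hh₁, ← cls_symm]
      refine cls_congr _ _ _ _ fun u h0 h1 => ?_
      rw [R3_seg, R3_seg]
      exact FC_eq δ hδ 0 1 (by ring) (by push_cast; ring) (by push_cast; ring)
    have e2 : cls (KL δ hδ) (0, Real.pi / 4, 0) (0, 9 * Real.pi / 4, 0) hx1 hx2 =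
        cls (FC δ hδ) (-2, 0, Real.pi / 4) (-2, 0, 9 * Real.pi / 4) l1 l2 := by
      refine cls_congr _ _ _ _ fun u h0 h1 => ?_
      rw [R3_seg, R3_seg]
      simp only [sub_self, mul_zero, add_zero]
      exact KL_zero δ hδ _ _
    rw [hcomm, e2, ← e1, cls_comp, hh₁, cls_comp]
  have lz : z = h₁ ≫ cls (KL δ hδ) (0, Real.pi / 4, 0) (0, Real.pi / 4, per δ) hx1 hx3 ≫
      inv h₁ := by
    have e1 : cls (FC δ hδ) (-2, per δ, Real.pi / 4) (3 / 2, per δ, 0) l3 b1 = inv h₁ := by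
      rw [hh₁, ← cls_symm]
      refine cls_congr _ _ _ _ fun u h0 h1 => ?_
      rw [R3_seg, R3_seg]
      exact FC_eq δ hδ 1 0 (by ring) (by push_cast; ring) (by push_cast; ring)
    have e2 : cls (KL δ hδ) (0, Real.pi / 4, 0) (0, Real.pi / 4, per δ) hx1 hx3 =
        cls (FC δ hδ) (-2, 0, Real.pi / 4) (-2, per δ, Real.pi / 4) l1 l3 := by
      refine cls_congr _ _ _ _ fun u h0 h1 => ?_
      rw [R3_seg, R3_seg]
      simp only [sub_self, mul_zero, add_zero]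
      exact KL_zero δ hδ _ _
    rw [e2, ← e1, cls_comp, hh₁, cls_comp]
  -- right piece
  obtain ⟨y, hy⟩ : ∃ y, y = KR δ hδ (0, Real.pi / 4, 0) := ⟨_, rfl⟩
  have hy1 : KR δ hδ (0, Real.pi / 4, 0) = y := hy.symm
  have hy2 : KR δ hδ (0, 9 * Real.pi / 4, 0) = y := by
    rw [hy, ← KR_θ δ hδ 0 (Real.pi / 4)]
    congr 2; congr 1; ring
  have hy3 : KR δ hδ (0, Real.pi / 4, 2 * Real.pi) = y := by
    rw [hy, ← KR_w δ hδ 0 (Real.pi / 4) 0, zero_add]
  obtain ⟨c₁, c₂, hcomm', hc₁, hc₂⟩ := piece_relations (KR δ hδ) (2 * Real.pi) (KR_θ δ hδ)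
    (KR_w δ hδ) (KR_top δ hδ) (KR_side δ hδ) hy1 hy2 hy3
  have r1 : FC δ hδ (3, Real.pi / 4 / δ, 0 - Real.pi / 4) = y := by rw [← KR_zero, hy1]
  have r2 : FC δ hδ (3, 9 * Real.pi / 4 / δ, 0 - 9 * Real.pi / 4) = y := by rw [← KR_zero, hy2]
  have r3 : FC δ hδ (3, Real.pi / 4 / δ, 2 * Real.pi - Real.pi / 4) = y := by
    rw [← KR_zero, hy3]
  set h₂ := cls (FC δ hδ) (3 / 2, 0, 0) (3, Real.pi / 4 / δ, 0 - Real.pi / 4) b0 r1 with hh₂
  have rz' : z' = h₂ ≫ cls (KR δ hδ) (0, Real.pi / 4, 0) (0, Real.pi / 4, 2 * Real.pi) hy1 hy3 ≫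
      inv h₂ := by
    have e1 : cls (FC δ hδ) (3, Real.pi / 4 / δ, 2 * Real.pi - Real.pi / 4)
        (3 / 2, 0, 2 * Real.pi) r3 b2 = inv h₂ := by
      rw [hh₂, ← cls_symm]
      refine cls_congr _ _ _ _ fun u h0 h1 => ?_
      rw [R3_seg, R3_seg]
      exact FC_eq δ hδ 0 1 (by ring) (by push_cast; ring) (by push_cast; ring)
    have e2 : cls (KR δ hδ) (0, Real.pi / 4, 0) (0, Real.pi / 4, 2 * Real.pi) hy1 hy3 =
        cls (FC δ hδ) (3, Real.pi / 4 / δ, 0 - Real.pi / 4)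
          (3, Real.pi / 4 / δ, 2 * Real.pi - Real.pi / 4) r1 r3 := by
      refine cls_congr _ _ _ _ fun u h0 h1 => ?_
      rw [R3_seg, R3_seg]
      simp only [sub_self, mul_zero, add_zero]
      rw [KR_zero]
      congr 2; congr 1; ring
    rw [e2, ← e1, cls_comp, hh₂, cls_comp]
  have rz : inv z' ≫ z = h₂ ≫ (c₁ ≫ c₂ ≫ inv c₁ ≫ inv c₂) ≫ inv h₂ := by
    have e0 : inv z' = cls (FC δ hδ) (3 / 2, 0, 0) (3 / 2, 0, -(2 * Real.pi)) b0 b3 := by
      rw [hz', ← cls_symm]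
      refine cls_congr _ _ _ _ fun u h0 h1 => ?_
      rw [R3_seg, R3_seg]
      exact FC_eq δ hδ 0 1 (by ring) (by push_cast; ring) (by push_cast; ring)
    have e0' : z = cls (FC δ hδ) (3 / 2, 0, -(2 * Real.pi)) (3 / 2, per δ, -(2 * Real.pi))
        b3 b4 := by
      rw [hz]
      refine cls_congr _ _ _ _ fun u h0 h1 => ?_
      rw [R3_seg, R3_seg]
      exact FC_eq δ hδ 0 1 (by ring) (by push_cast; ring) (by push_cast; ring)
    have e1 : cls (FC δ hδ) (3, 9 * Real.pi / 4 / δ, 0 - 9 * Real.pi / 4)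
        (3 / 2, per δ, -(2 * Real.pi)) r2 b4 = inv h₂ := by
      rw [hh₂, ← cls_symm]
      refine cls_congr _ _ _ _ fun u h0 h1 => ?_
      rw [R3_seg, R3_seg]
      exact FC_eq δ hδ 1 (-1) (by ring) (by unfold per; push_cast; ring) (by push_cast; ring)
    have e2 : cls (KR δ hδ) (0, Real.pi / 4, 0) (0, 9 * Real.pi / 4, 0) hy1 hy2 =
        cls (FC δ hδ) (3, Real.pi / 4 / δ, 0 - Real.pi / 4)
          (3, 9 * Real.pi / 4 / δ, 0 - 9 * Real.pi / 4) r1 r2 := by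
      refine cls_congr _ _ _ _ fun u h0 h1 => ?_
      rw [R3_seg, R3_seg]
      simp only [sub_self, mul_zero, add_zero]
      rw [KR_zero]
      congr 2
      congr 1
      · ring
      · ring
    rw [hcomm', e2, ← e1, cls_comp, hh₂, cls_comp, e0, e0', cls_comp]
  obtain ⟨A₁, A₂, hA₁, hA₂, hA⟩ := end_relations h₁ a₁ a₂ _ z z' lz' lz ha₁ ha₂
  obtain ⟨B₁, B₂, hB₁, hB₂, hB⟩ := end_relations h₂ c₁ c₂ _ z' (inv z' ≫ z) rz rz' hc₁ hc₂
  refine ⟨z, z', A₁, A₂, B₁, B₂, hA₁, hA₂, hA, hB₁, hB₂, ?_, ?_⟩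
  · rw [hB]
    have hinv : (z' : FundamentalGroup (Sd δ hδ).Space (m0 δ hδ))⁻¹ =
        inv (C := FundamentalGroupoid (Sd δ hδ).Space) z' := Groupoid.inv_eq_inv z'
    rw [End.mul_def, hinv]
  · intro N h
    have bN : FC δ hδ (3 / 2, 0, 2 * Real.pi * N) = m0 δ hδ := by
      rw [← b0]; exact FC_eq δ hδ 0 N rfl (by simp) (by simp)
    have h' := (H443.cls_pow δ hδ b0 b2 z' hz' N bN).symm.trans h
    refine ⟨Seg.path (FC δ hδ) (3 / 2, 0, 0) (3 / 2, 0, 2 * Real.pi * N) b0 bN, ?_, ?_⟩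
    · exact Path.Homotopic.Quotient.exact h'
    · intro t
      change FC δ hδ ((3 / 2, 0, 0) + (t : ℝ) • ((3 / 2, 0, 2 * Real.pi * N) - (3 / 2, 0, 0))) =
        (Sd δ hδ).proj .C ⟨!₂[3 / 2, 0, 2 * Real.pi * (N * t)], _⟩
      rw [R3_seg, ← FC_base]
      congr 2
      · ring
      · congr 1 <;> ring

namespace H443

/-- `z'` has infinite order -/
theorem inf_order (δ : ℝ) (hδ : 0 < δ) (hNC : NoConj (g0 δ hδ)) {N : ℕ} (hN : 0 < N)
    (γ : Path (m0 δ hδ) (m0 δ hδ)) (hγ' : ∀ t : unitInterval, γ t = circ δ hδ (N * t)) :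
    ¬ γ.Homotopic (Path.refl _) := by
  intro hγ
  obtain ⟨e₀, he₀⟩ := exists_isExp (g0 δ hδ)
  have h8 : (fun t : ℝ => circ δ hδ (N * t)) 0 = m0 δ hδ := by
    simp only [mul_zero]; exact circ_zero δ hδ
  have hNR : (N : ℝ) ≠ 0 := by exact_mod_cast hN.ne'
  have key := he₀.closed_geodesic_not_null_of_noConj hNC ((isGeodesic_circ hδ).comp_mul (N : ℝ))
    ⟨1 / (2 * N), by
      have e1 : (N : ℝ) * (1 / (2 * N)) = 1 / 2 := by field_simp
      simp only [e1, mul_zero]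
      exact circ_half_ne δ hδ⟩ (γ.cast h8 h8) (fun t => by
      rw [Path.cast_coe, hγ' t])
  apply key
  have h9 : (Path.refl (m0 δ hδ)).cast h8 h8 =
      Path.refl ((fun t : ℝ => circ δ hδ (N * t)) 0) := by
    ext t
    simp only [Path.cast_coe, Path.refl_apply]
    exact h8.symm
  rw [← h9]
  exact homotopic_cast_aux h8 hγ

/-- the property which is preserved by products with closed manifolds without conjugate points -/
def CarriesInf (E M : Type) [NormedAddCommGroup E] [NormedSpace ℝ E] [TopologicalSpace M]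
    [ChartedSpace E M] : Prop :=
  (∃ g : Metric E M, NoConj g) ∧
  ∃ (m : M) (z z' A₁ A₂ B₁ B₂ : FundamentalGroup M m),
    Commute z A₁ ∧ Commute z A₂ ∧ A₁ * A₂ * A₁⁻¹ * A₂⁻¹ = z' ∧
    Commute z' B₁ ∧ Commute z' B₂ ∧ B₁ * B₂ * B₁⁻¹ * B₂⁻¹ = z * z'⁻¹ ∧
    ∀ N : ℕ, 0 < N → z' ^ N ≠ 1

theorem carriesInf_Sd (δ : ℝ) (hδ : 0 < δ) (hNC : NoConj (g0 δ hδ)) :
    CarriesInf E3 (Sd δ hδ).Space := by
  refine ⟨⟨_, hNC⟩, m0 δ hδ, ?_⟩
  obtain ⟨z, z', A₁, A₂, B₁, B₂, h1, h2, h3, h4, h5, h6, h7⟩ := pi1_relations_inf δ hδ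
  refine ⟨z, z', A₁, A₂, B₁, B₂, h1, h2, h3, h4, h5, h6, fun N hN hz' => ?_⟩
  obtain ⟨γ, hγ, hγ'⟩ := h7 N hz'
  exact inf_order δ hδ hNC hN γ hγ' hγ

theorem CarriesInf.carries {E M : Type} [NormedAddCommGroup E] [NormedSpace ℝ E]
    [TopologicalSpace M] [ChartedSpace E M] (h : CarriesInf E M) : Carries E M := by
  obtain ⟨h0, m, z, z', A₁, A₂, B₁, B₂, h1, h2, h3, h4, h5, h6, h7⟩ := h
  refine ⟨h0, m, z, z', A₁, A₂, B₁, B₂, h1, h2, h3, h4, h5, h6, ?_⟩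
  have := h7 1 one_pos
  rwa [pow_one] at this

theorem CarriesInf.prod {E M F N : Type} [NormedAddCommGroup E] [NormedSpace ℝ E]
    [FiniteDimensional ℝ E] [TopologicalSpace M] [ChartedSpace E M] [IsManifold 𝓘(ℝ, E) ∞ M]
    [NormedAddCommGroup F] [NormedSpace ℝ F]
    [FiniteDimensional ℝ F] [TopologicalSpace N] [ChartedSpace F N] [IsManifold 𝓘(ℝ, F) ∞ N]
    [Nonempty N] (h : CarriesInf E M) {k : Metric F N} (hk : NoConj k) :
    CarriesInf (E × F) (M × N) := by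
  obtain ⟨⟨g, hg⟩, m, z, z', A₁, A₂, B₁, B₂, h1, h2, h3, h4, h5, h6, h7⟩ := h
  refine ⟨⟨g.prod k, hg.prod hk⟩, ?_⟩
  obtain ⟨b⟩ := ‹Nonempty N›
  let ι : C(M, M × N) := ⟨fun x => (x, b), by fun_prop⟩
  let π : C(M × N, M) := ⟨Prod.fst, continuous_fst⟩
  let f : FundamentalGroup M m →* FundamentalGroup (M × N) (m, b) := FundamentalGroup.map ι m
  have hf : Function.Injective f := by
    intro x y hxy
    have h9 := congrArg (fun q : Path.Homotopic.Quotient (m, b) (m, b) => q.map π) hxy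
    have h10 : ∀ x : FundamentalGroup M m,
        (Path.Homotopic.Quotient.map (x₀ := (m, b)) (x₁ := (m, b)) (f x) π :
          Path.Homotopic.Quotient m m) = x := by
      intro x
      induction x using Quotient.inductionOn with
      | h p => rfl
    have h11 := (h10 x).symm.trans (h9.trans (h10 y))
    exact h11
  refine ⟨(m, b), f z, f z', f A₁, f A₂, f B₁, f B₂, h1.map f, h2.map f, ?_, h4.map f, h5.map f,
    ?_, ?_⟩
  · rw [← h3]; simp only [map_mul, map_inv]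
  · have := congrArg f h6
    simpa only [map_mul, map_inv] using this
  · intro N hN h8
    rw [← map_pow] at h8
    exact h7 N hN (hf (h8.trans (map_one f).symm))

/-- in every dimension `n ≥ 3` -/
theorem exists_carriesInf (n : ℕ) :
    ∃ (E : Type) (_ : NormedAddCommGroup E) (_ : NormedSpace ℝ E)
      (M : Type) (_ : TopologicalSpace M) (_ : ChartedSpace E M) (_ : IsManifold 𝓘(ℝ, E) ∞ M),
      FiniteDimensional ℝ E ∧ Module.finrank ℝ E = n + 3 ∧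
      CompactSpace M ∧ T2Space M ∧ ConnectedSpace M ∧ CarriesInf E M := by
  induction n with
  | zero =>
    obtain ⟨δ₀, hδ₀, h⟩ := noConj_g0
    have hδ : 0 < δ₀ / 2 := by positivity
    have hNC := h (δ₀ / 2) hδ (by linarith only [hδ₀])
    exact ⟨E3, inferInstance, inferInstance, (Sd (δ₀ / 2) hδ).Space, inferInstance, inferInstance,
      inferInstance, inferInstance, by simp only [finrank_euclideanSpace, Fintype.card_fin,
      zero_add], inferInstance, inferInstance, inferInstance, carriesInf_Sd _ hδ hNC⟩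
  | succ n ih =>
    obtain ⟨E, i1, i2, M, i3, i4, i5, i6, h1, h2, h3, h4, h5⟩ := ih
    refine ⟨E × ℝ, inferInstance, inferInstance, M × S1G.Space, inferInstance, prodCharted,
      isManifold_prodCharted, inferInstance, ?_, inferInstance, inferInstance, inferInstance,
      h5.prod noConj_gS1⟩
    rw [Module.finrank_prod, h1, Module.finrank_self]

end H443

end Vale.Agent.P255
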