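import Vale.Agent.P255.H443.Inf

set_option linter.all false

/-!
# P255: a closed manifold of nonpositive curvature (any dimension) gives a free action of its
fundamental group on a nonempty space satisfying the Bruhat-Tits midpoint inequality
-/

open scoped Manifold ContDiff Topology unitInterval
open Set Filter

noncomputable section

namespace Vale.Agent.P255

namespace H443

open ExpSys in
open Path.Homotopic.Quotient in
theorem free_dd {E M : Type} [NormedAddCommGroup E] [NormedSpace ℝ E] [TopologicalSpace M]
    (S : ExpSys E M) (m₀ : M) (p : FundamentalGroup M m₀) (x : PX m₀)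
    (hx : S.dd x (p • x) = 0) : p = 1 := by
  have h1 : x.2.trans (x.2.trans p).symm = Path.Homotopic.Quotient.refl x.1 :=
    S.eq_refl_of_len hx
  have h2 := congrArg (fun α : Cl x.1 x.1 => α.trans (x.2.trans p)) h1
  simp only [trans_assoc, symm_trans, trans_refl, refl_trans] at h2
  have h3 := congrArg (fun α : Cl x.1 m₀ => (x.2.symm.trans α)) h2
  simp only [← trans_assoc, symm_trans, refl_trans] at h3
  exact h3.symm

/-- the free action attached to a closed manifold of nonpositive curvature -/
theorem exists_cnAct {F Y : Type} [NormedAddCommGroup F] [NormedSpace ℝ F]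
    [FiniteDimensional ℝ F] [TopologicalSpace Y] [ChartedSpace F Y]
    [IsManifold 𝓘(ℝ, F) ∞ Y] [CompactSpace Y] [T2Space Y] (g : Metric F Y) (hg : Npc g) (y : Y) :
    ∃ (X : Type) (_ : MulAction (FundamentalGroup Y y) X) (d : X → X → ℝ), Nonempty X ∧
      CNAct (FundamentalGroup Y y) X d ∧
      ∀ (p : FundamentalGroup Y y) (x : X), d x (p • x) = 0 → p = 1 := by
  obtain ⟨e, he⟩ := exists_isExp g
  refine ⟨ExpSys.PX y, inferInstance, (he.toExpSys he.gaussAt (he.rauchAt hg)).dd,
    ⟨⟨y, Path.Homotopic.Quotient.refl y⟩⟩, (he.toExpSys he.gaussAt (he.rauchAt hg)).cnAct y,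
    fun p x hx => free_dd _ y p x hx⟩

end H443

end Vale.Agent.P255
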