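import Vale.Agent.P255.H443.Act

/-!
Orthogonality relations for an isometric action of `Γ` in which only the elements of a subgroup
`K` are known to attain their minimal displacement.
-/

set_option linter.all false

noncomputable section

namespace Vale.Agent.P255

open Filter Topology

variable {Γ X : Type*} [Group Γ] [MulAction Γ X] {d : X → X → ℝ} {K : Subgroup Γ}

/-- the displacement function of `K` is the restriction of that of `Γ` -/
lemma tau_coe (k : K) : tau d (k : Γ) = tau (Γ := K) (X := X) d k := rfl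

namespace SS

/-- The Busemann quasi-cocycle of the centralizer of `g ∈ K` in `Γ`. -/
lemma tendsto_addV (h : SS K X d) (hinv : ∀ (g : Γ) (x y : X), d (g • x) (g • y) = d x y)
    [Nonempty X] {g : K} (hg : 0 < tau d g) (x : X)
    {u : Γ} (v : Γ) (hu : Commute (g : Γ) u) :
    Tendsto (fun n : ℕ => (d x ((g ^ n) • (u * v) • x) - d x ((g ^ n) • x)) -
      (d x ((g ^ n) • u • x) - d x ((g ^ n) • x)) -
      (d x ((g ^ n) • v • x) - d x ((g ^ n) • x))) atTop (𝓝 0) := by
  have h1 := h.tendsto_cross hg (u⁻¹ • x) x (v • x) x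
  refine h1.congr fun n => ?_
  have e : ∀ z : X, d x ((g ^ n) • u • z) = d (u⁻¹ • x) ((g ^ n) • z) := by
    intro z
    have hc : Commute ((g ^ n : K) : Γ) u := by
      rw [Subgroup.coe_pow]; exact hu.pow_left n
    rw [← hinv u (u⁻¹ • x), smul_inv_smul, Subgroup.smul_def, Subgroup.smul_def, smul_smul,
      smul_smul, hc.eq]
  rw [mul_smul, e, e]
  ring

lemma tendsto_commV (h : SS K X d) (hinv : ∀ (g : Γ) (x y : X), d (g • x) (g • y) = d x y)
    [Nonempty X] {g : K} (hg : 0 < tau d g) (x : X)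
    {a b : Γ} (ha : Commute (g : Γ) a) (hb : Commute (g : Γ) b) (m : ℕ) :
    Tendsto (fun n : ℕ => d x ((g ^ n) • ((a * b * a⁻¹ * b⁻¹) ^ m) • x) - d x ((g ^ n) • x))
      atTop (𝓝 0) := by
  have hc : Commute (g : Γ) (a * b * a⁻¹ * b⁻¹) :=
    ((ha.mul_right hb).mul_right ha.inv_right).mul_right hb.inv_right
  have hone : Tendsto (fun n : ℕ => d x ((g ^ n) • (a * b * a⁻¹ * b⁻¹) • x) - d x ((g ^ n) • x))
      atTop (𝓝 0) := by
    have h1 := h.tendsto_addV hinv hg x b ha
    have h2 := h.tendsto_addV hinv hg x a hb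
    have h3 := h.tendsto_addV hinv hg x (b * a) hc
    have e : a * b * a⁻¹ * b⁻¹ * (b * a) = a * b := by group
    rw [e] at h3
    have h4 := (h1.sub h2).sub h3
    simp only [sub_zero] at h4
    refine h4.congr fun n => ?_
    ring
  induction m with
  | zero => simp
  | succ m ih =>
    have h5 := h.tendsto_addV hinv hg x ((a * b * a⁻¹ * b⁻¹) ^ m) hc
    have h6 := (h5.add hone).add ih
    simp only [add_zero] at h6
    refine h6.congr fun n => ?_
    rw [pow_succ']
    ring

/-- If `a` and `b` commute with `g` then `g` is orthogonal to the powers of the commutator of `a`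
and `b` which lie in `K`. -/
lemma orthV (h : SS K X d) (hinv : ∀ (g : Γ) (x y : X), d (g • x) (g • y) = d x y)
    [Nonempty X] {g c : K} {a b : Γ} (ha : Commute (g : Γ) a) (hb : Commute (g : Γ) b) {m : ℕ}
    (hcm : (c : Γ) = (a * b * a⁻¹ * b⁻¹) ^ m) :
    tau d (g * c) ^ 2 = tau d g ^ 2 + tau d c ^ 2 := by
  have hc0 : Commute (g : Γ) (a * b * a⁻¹ * b⁻¹) :=
    ((ha.mul_right hb).mul_right ha.inv_right).mul_right hb.inv_right
  have hc : Commute g c := by
    apply Subtype.ext
    push_cast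
    rw [hcm]
    exact hc0.pow_right m
  have hci : ((c⁻¹ : K) : Γ) = (b * a * b⁻¹ * a⁻¹) ^ m := by
    rw [Subgroup.coe_inv, hcm, ← inv_pow]
    congr 1
    group
  have hpar := h.par_eq hc
  rcases (h.tau_nonneg g).eq_or_lt with h0 | h0
  · -- degenerate case
    have nn : ∀ {e : K}, Commute g e → tau d e ^ 2 ≤ tau d (g * e) ^ 2 := by
      intro e he
      set Q := tau d (g * e) ^ 2 - tau d g ^ 2 - tau d e ^ 2 with hQ
      by_contra hlt
      push Not at hlt
      have hQneg : Q < 0 := by rw [hQ, ← h0]; linarith only [hlt]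
      obtain ⟨n, hn⟩ := exists_nat_gt (tau d e ^ 2 / (-Q))
      have h3 := h.tau_pow_mul he n
      rw [← hQ, ← h0] at h3
      rw [div_lt_iff₀ (by linarith only [hQneg])] at hn
      linarith only [sq_nonneg (tau d (g ^ n * e)), h3, hn]
    have n1 := nn hc
    have n2 := nn hc.inv_right
    rw [h.tau_inv] at n2
    rw [← h0] at hpar ⊢
    nlinarith
  · obtain ⟨x₀, hx₀⟩ := h.exists_min g
    have t1 := h.tendsto_commV hinv h0 x₀ ha hb m
    have t2 := h.tendsto_commV hinv h0 x₀ hb ha m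
    rw [← hcm] at t1
    rw [← hci] at t2
    have l1 := h.cross_nonpos hc hx₀ t1
    have l2 := h.cross_nonpos hc.inv_right hx₀ t2
    rw [h.tau_inv] at l2
    linarith

/-- The forbidden configuration: if `z` commutes with `A₁`, `A₂`, if `z' = [A₁, A₂]` commutes with
`B₁`, `B₂` and `[B₁, B₂] = z z'⁻¹`, then a power of `z'` has a fixed point. -/
theorem fixed (h : SS K X d) (hinv : ∀ (g : Γ) (x y : X), d (g • x) (g • y) = d x y)
    [Nonempty X] {z z' A₁ A₂ B₁ B₂ : Γ}
    (h1 : Commute z A₁) (h2 : Commute z A₂) (h3 : A₁ * A₂ * A₁⁻¹ * A₂⁻¹ = z')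
    (h4 : Commute z' B₁) (h5 : Commute z' B₂) (h6 : B₁ * B₂ * B₁⁻¹ * B₂⁻¹ = z * z'⁻¹)
    (N : ℕ) (hz : z ^ N ∈ K) (hz' : z' ^ N ∈ K) : ∃ x : X, d x ((z' ^ N) • x) = 0 := by
  have hzz' : Commute z z' := by
    rw [← h3]
    exact ((h1.mul_right h2).mul_right h1.inv_right).mul_right h2.inv_right
  set e₁ : K := ⟨z ^ N, hz⟩ with he₁
  set e₂ : K := ⟨z' ^ N, hz'⟩ with he₂
  have h12 : Commute e₁ e₂ := by
    apply Subtype.ext
    exact (hzz'.pow_pow N N).eq
  have o1 := h.orthV hinv (g := e₁) (c := e₂) (h1.pow_left N) (h2.pow_left N) (m := N)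
    (by rw [h3])
  have o2 := h.orthV hinv (g := e₂) (c := e₁ * e₂⁻¹) (h4.pow_left N) (h5.pow_left N) (m := N)
    (by rw [h6, hzz'.inv_right.mul_pow, inv_pow]; rfl)
  have e : e₂ * (e₁ * e₂⁻¹) = e₁ := by
    rw [← mul_assoc, h12.symm.eq]; group
  rw [e] at o2
  have hp := h.par_eq h12
  have : tau d e₂ ^ 2 = 0 := by nlinarith [sq_nonneg (tau d e₂)]
  have h0 : tau d e₂ = 0 := by simpa using this
  obtain ⟨x₀, hx₀⟩ := h.exists_min e₂
  exact ⟨x₀, hx₀.trans h0⟩

end SS

end Vale.Agent.P255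
end
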